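import Vale.Agent.H24.GSH.Defs

namespace Vale.Agent.H24.GSH.Stubs
open Vale.Agent.H24.GSH

/-- ROW S (Schützenberger for order preserving partial injections) -/
theorem sf_run {α Q : Type} [Fintype α] [DecidableEq α] [Fintype Q] [LinearOrder Q]
    (δ : Q → α → Option Q) (hm : Mono δ) (i j : Q) :
    H 0 {w : List α | run δ i w = some j} := by
  sorry

/-- ROW C (criterion). Base state `none`. -/
theorem criterion {α Q : Type} [Fintype α] [DecidableEq α] [Fintype Q] [LinearOrder Q]
    (δ : Option Q → α → Option Q) (hm : Mono (fun q a => δ (some q) a)) (i j : Option Q) :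
    H 1 {w : List α | w.foldl δ i = j} := by
  sorry

/-- ROW D (the counting machine) -/
theorem machine {α : Type} [Fintype α] [DecidableEq α] (c : α → Fin 3) (a : α) (x y : S) :
    H 1 {w : List α | w.foldl (fun s b => bstep s (c b) (decide (b = a))) x = y} := by
  sorry

/-- ROW G (groups that are elementary abelian 2-group by Z/3) -/
theorem group_result {G : Type} [Group G] [Finite G] (π : G →* Multiplicative (ZMod 3))
    (hker : ∀ g, π g = 1 → g * g = 1) {α : Type} [Fintype α] [DecidableEq α] (φ : α → G)
    (T : Set G) : H 1 {w : List α | (w.map φ).prod ∈ T} := by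
  sorry

/-- ROW A (the alternating group A_4) -/
theorem alt_hom : ∃ π : alternatingGroup (Fin 4) →* Multiplicative (ZMod 3),
    ∀ g, π g = 1 → g * g = 1 := by
  sorry

/-- ROW N (permutation groups generated by letters that are order preserving off the base point) -/
theorem perm_result {n : ℕ} {α : Type} [Fintype α] [DecidableEq α]
    (φ : α → Equiv.Perm (Option (Fin n)))
    (hφ : ∀ a (p q p' q' : Fin n), p < q → φ a (some p) = some p' → φ a (some q) = some q' →
      p' < q') (T : Set (Equiv.Perm (Option (Fin n)))) :
    H 1 {w : List α | (w.map φ).prod ∈ T} := by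
  sorry

/-- ROW N2: all of `S_{n+1}`, letters = all transpositions of the base point -/
theorem star_transpositions {n : ℕ} (T : Set (Equiv.Perm (Option (Fin n)))) :
    H 1 {w : List (Fin n) | (w.map fun i => Equiv.swap none (some i)).prod ∈ T} := by
  sorry

end Vale.Agent.H24.GSH.Stubs
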